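import Vale.Agent.P275RH.MkD

/-!
P275 (helper24): the normal form of a quadratic word on a graph.
-/

set_option linter.all false

open scoped commutatorElement
open FreeGroup hiding map_one map_mul map_inv
open Function

noncomputable section

namespace Vale.Agent.P275GN

open Vale.Agent.P275RH

section alg

variable {G H X : Type} [Group G] [Group H]

/-- `a` or its inverse -/
def sg (b : Bool) (a : G) : G := if b then a else a⁻¹

theorem sg_sg (b : Bool) (a : G) : sg b (sg b a) = a := by cases b <;> simp [sg]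

theorem sg_not (b : Bool) (a : G) : sg (!b) a = (sg b a)⁻¹ := by cases b <;> simp [sg]

theorem map_sg {F : Type} [FunLike F G H] [MonoidHomClass F G H] (f : F) (b : Bool) (a : G) :
    f (sg b a) = sg b (f a) := by cases b <;> simp [sg]

theorem mk_nil : mk ([] : List (X × Bool)) = 1 := rfl

theorem mk_app (A B : List (X × Bool)) : mk (A ++ B) = mk A * mk B := FreeGroup.mul_mk.symm

theorem mk_cons (a : X × Bool) (A : List (X × Bool)) : mk (a :: A) = sg a.2 (of a.1) * mk A := by
  obtain ⟨x, b⟩ := a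
  cases b <;> rfl

theorem hom_mk {F F' : Type} [FunLike F (FreeGroup X) G] [MonoidHomClass F (FreeGroup X) G]
    [FunLike F' (FreeGroup X) G] [MonoidHomClass F' (FreeGroup X) G] (f : F) (g : F')
    {A : List (X × Bool)} (h : ∀ a ∈ A, f (of a.1) = g (of a.1)) : f (mk A) = g (mk A) := by
  induction A with
  | nil => rw [mk_nil, map_one, map_one]
  | cons a A ih =>
    rw [mk_cons, map_mul, map_mul, map_sg, map_sg, h a (by simp),
      ih fun b hb => h b (by simp [hb])]

theorem fix_mk {F : Type} [FunLike F (FreeGroup X) (FreeGroup X)]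
    [MonoidHomClass F (FreeGroup X) (FreeGroup X)] (f : F) {A : List (X × Bool)}
    (h : ∀ a ∈ A, f (of a.1) = of a.1) : f (mk A) = mk A := hom_mk f (MonoidHom.id _) h

/-- elementary automorphisms -/
theorem ex_aut (S : X → Prop) (U V : X → FreeGroup X) (ε : X → Bool)
    (h : ∀ f : FreeGroup X →* FreeGroup X, (∀ y, ¬S y → f (of y) = of y) →
      ∀ x, S x → f (U x) = U x ∧ f (V x) = V x) : ∃ φ : FreeGroup X ≃* FreeGroup X,
    (∀ x, S x → φ (of x) = U x * sg (ε x) (of x) * V x) ∧ ∀ x, ¬S x → φ (of x) = of x := by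
  classical
  let f : FreeGroup X →* FreeGroup X :=
    lift fun x => if S x then U x * sg (ε x) (of x) * V x else of x
  let g : FreeGroup X →* FreeGroup X :=
    lift fun x => if S x then sg (ε x) ((U x)⁻¹ * of x * (V x)⁻¹) else of x
  have f1 : ∀ x, S x → f (of x) = U x * sg (ε x) (of x) * V x := fun x hx => by simp [f, hx]
  have f2 : ∀ x, ¬S x → f (of x) = of x := fun x hx => by simp [f, hx]
  have g1 : ∀ x, S x → g (of x) = sg (ε x) ((U x)⁻¹ * of x * (V x)⁻¹) := fun x hx => by
    simp [g, hx]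
  have g2 : ∀ x, ¬S x → g (of x) = of x := fun x hx => by simp [g, hx]
  refine ⟨f.toMulEquiv g (FreeGroup.ext_hom _ _ fun x => ?_) (FreeGroup.ext_hom _ _ fun x => ?_),
    f1, f2⟩
  · show g (f (of x)) = of x
    by_cases hx : S x
    · rw [f1 x hx, map_mul, map_mul, map_sg, g1 x hx, sg_sg, (h g g2 x hx).1, (h g g2 x hx).2]
      group
    · rw [f2 x hx, g2 x hx]
  · show f (g (of x)) = of x
    by_cases hx : S x
    · rw [g1 x hx, map_sg, map_mul, map_mul, map_inv, map_inv, f1 x hx, (h f f2 x hx).1,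
        (h f f2 x hx).2, show (U x)⁻¹ * (U x * sg (ε x) (of x) * V x) * (V x)⁻¹ =
          sg (ε x) (of x) by group, sg_sg]
    · rw [g2 x hx, f2 x hx]

/-- the product of the commutators -/
def pc {g : ℕ} (c : Fin g × Bool → G) : G := (List.ofFn fun j => ⁅c (j, false), c (j, true)⁆).prod

theorem map_pc {F : Type} [FunLike F G H] [MonoidHomClass F G H] (f : F) {g : ℕ}
    (c : Fin g × Bool → G) : f (pc c) = pc fun p => f (c p) := by
  simp only [pc, map_list_prod, List.map_ofFn, Function.comp_def, map_commutatorElement]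

theorem pc_succ {g : ℕ} (c : Fin (g + 1) × Bool → G) :
    pc c = ⁅c (0, false), c (0, true)⁆ * pc fun p : Fin g × Bool => c (p.1.succ, p.2) := by
  simp only [pc, List.ofFn_succ, List.prod_cons]

/-- the letter `x` occurs -/
def Oc (x : X) (w : List (X × Bool)) : Prop := ∃ b, (x, b) ∈ w

theorem inj_cases {g : ℕ} {c : Fin g × Bool → X} {x y : X} (a1 : Injective c) (yx : y ≠ x)
    (cx : ∀ p, c p ≠ x) (cy : ∀ p, c p ≠ y) : Injective fun p : Fin (g + 1) × Bool =>
      (Fin.cases (if p.2 then y else x) (fun j => c (j, p.2)) p.1 : X) := by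
  rintro ⟨i, b⟩ ⟨j, b'⟩ e
  induction i using Fin.cases <;> induction j using Fin.cases <;>
    simp only [Fin.cases_zero, Fin.cases_succ] at e
  · cases b <;> cases b' <;> simp [yx, yx.symm] at e ⊢
  · cases b <;> simp [(cx _).symm, (cy _).symm] at e
  · cases b' <;> simp [cx, cy] at e
  · simpa using a1 e

theorem two {z : X} {a b : Bool} {L : List (X × Bool)} (p : (z, a) ∉ L) (q : (z, !a) ∉ L) :
    (z, b) ∉ L := by cases a <;> cases b <;> simp_all

/-- normal form of a quadratic word -/
theorem qnf (N : ℕ) : ∀ w : List (X × Bool), w.length ≤ N → w.Nodup →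
    (∀ a ∈ w, (a.1, !a.2) ∈ w) → ∃ (g : ℕ) (c : Fin g × Bool → X)
      (θ : FreeGroup X ≃* FreeGroup X), Injective c ∧ (∀ p, Oc (c p) w) ∧
      (∀ x, ¬Oc x w → θ (of x) = of x) ∧ mk w = θ (pc fun p => of (c p)) := by
  classical
  induction N with
  | zero =>
    intro w h _ _
    obtain rfl := List.length_eq_zero_iff.1 (Nat.le_zero.1 h)
    exact ⟨0, fun p => p.1.elim0, MulEquiv.refl _, fun p => p.1.elim0, fun p => p.1.elim0,
      fun _ _ => rfl, rfl⟩
  | succ N ih =>
    intro w hl hn hc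
    rcases w with _ | ⟨⟨x, ε⟩, w⟩
    · exact ih [] (Nat.zero_le _) hn hc
    have h0 : (x, !ε) ∈ w := by simpa using hc (x, ε) (by simp)
    obtain ⟨B, C, rfl⟩ := List.append_of_mem h0
    by_cases hB : ∀ a ∈ B, (a.1, !a.2) ∈ B
    · have n1 : (B ++ C).Nodup ∧ (x, ε) ∉ B ++ C ∧ (x, !ε) ∉ B ++ C := by
        simp only [List.nodup_cons, List.nodup_middle, List.mem_append, List.mem_cons] at hn ⊢
        tauto
      have nx : ∀ b, (x, b) ∉ B ++ C := fun b => two n1.2.1 n1.2.2
      obtain ⟨g, c, θ, a1, a2, a3, a4⟩ := ih (B ++ C) (by simp at hl ⊢; omega) n1.1 fun a ha => by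
        have := hc a (by simp at ha ⊢; tauto)
        have e : a.1 ≠ x := fun e => nx a.2 (e ▸ ha)
        simp [e] at this ⊢
        exact this
      obtain ⟨φ, b1, b2⟩ := ex_aut (Oc · B) (fun _ => sg ε (of x)) (fun _ => (sg ε (of x))⁻¹)
        (fun _ => true) fun f hf y _ => by
          have := hf x fun ⟨b, hb⟩ => nx b (List.mem_append_left _ hb)
          rw [map_inv, map_sg, this]
          exact ⟨rfl, rfl⟩
      have sub : ∀ z, Oc z (B ++ C) → Oc z ((x, ε) :: (B ++ (x, !ε) :: C)) := fun z ⟨b, hb⟩ =>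
        ⟨b, by simp at hb ⊢; tauto⟩
      refine ⟨g, c, θ.trans φ, a1, fun p => sub _ (a2 p), fun z hz => ?_, ?_⟩
      · rw [MulEquiv.trans_apply, a3 z fun h => hz (sub z h),
          b2 z fun ⟨b, hb⟩ => hz (sub z ⟨b, List.mem_append_left _ hb⟩)]
      · rw [MulEquiv.trans_apply, ← a4, mk_app, map_mul, fix_mk φ (A := C) fun a ha => b2 _ ?_,
          hom_mk φ (MulAut.conj (sg ε (of x))) (A := B) fun a ha => b1 _ ⟨a.2, ha⟩,
          mk_cons, mk_app, mk_cons, sg_not, MulAut.conj_apply]
        · group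
        · rintro ⟨b, hb⟩
          have d := (List.nodup_append.1 n1.1).2.2
          by_cases e : b = a.2
          · exact d _ hb _ ha (by rw [e])
          · exact d _ (hB _ hb) _ ha (Prod.ext rfl (by revert e; cases b <;> cases a.2 <;> simp))
    · push Not at hB
      obtain ⟨⟨y, δ⟩, y1, y2⟩ := hB
      have yx : y ≠ x := by
        rintro rfl
        simp only [List.nodup_cons, List.nodup_middle, List.mem_append, List.mem_cons] at hn
        exact two (L := B) (a := ε) (by tauto) (by tauto) y1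
      have y3 : (y, !δ) ∈ C := by
        have := hc (y, δ) (by simp [y1])
        simp [yx] at this y2
        tauto
      obtain ⟨B, B', rfl⟩ := List.append_of_mem y1
      obtain ⟨D, E, rfl⟩ := List.append_of_mem y3
      have pm : ((x, ε) :: (B ++ (y, δ) :: B' ++ (x, !ε) :: (D ++ (y, !δ) :: E))).Perm
          ((x, ε) :: (x, !ε) :: (y, δ) :: (y, !δ) :: (D ++ B' ++ B ++ E)) := by
        rw [List.perm_iff_count]
        intro a
        simp only [List.count_cons, List.count_append]
        omega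
      have n1 := pm.nodup_iff.1 hn
      simp only [List.nodup_cons, List.mem_cons, not_or] at n1
      have nx : ∀ b, (x, b) ∉ D ++ B' ++ B ++ E := fun b => two n1.1.2.2.2 n1.2.1.2.2
      have ny : ∀ b, (y, b) ∉ D ++ B' ++ B ++ E := fun b => two n1.2.2.1.2 n1.2.2.2.1
      obtain ⟨g, c, θ, a1, a2, a3, a4⟩ := ih (D ++ B' ++ B ++ E)
        (by have := pm.length_eq; simp only [List.length_cons] at hl this; omega) n1.2.2.2.2
        fun a ha => by
          have := pm.mem_iff.1 (hc a (pm.mem_iff.2 (by simp only [List.mem_cons]; tauto)))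
          have e : a.1 ≠ x := fun e => nx a.2 (e ▸ ha)
          have e' : a.1 ≠ y := fun e => ny a.2 (e ▸ ha)
          simpa only [List.mem_cons, Prod.mk.injEq, e, e', false_and, false_or] using this
      have fx : ∀ {F : Type} [FunLike F (FreeGroup X) (FreeGroup X)]
          [MonoidHomClass F (FreeGroup X) (FreeGroup X)] (f : F),
          (∀ z, ¬(z = x ∨ z = y) → f (of z) = of z) → ∀ L : List (X × Bool),
          L ⊆ D ++ B' ++ B ++ E → f (mk L) = mk L := fun f hf L hL => fix_mk f fun a ha =>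
        hf _ fun e => e.elim (fun e => nx a.2 (e ▸ hL ha)) fun e => ny a.2 (e ▸ hL ha)
      obtain ⟨φ, b1, b2⟩ := ex_aut (fun z => z = x ∨ z = y)
        (fun z => if z = x then 1 else mk (D ++ B' ++ B))
        (fun z => if z = x then (mk (D ++ B'))⁻¹ else (mk D)⁻¹) (fun z => if z = x then ε else δ)
        fun f hf z _ => by
          split_ifs
          · rw [map_one, map_inv, fx f hf _ (by intro a; simp; tauto)]
            exact ⟨rfl, rfl⟩
          · rw [map_inv, fx f hf _ (by intro a; simp; tauto), fx f hf _ (by intro a; simp; tauto)]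
            exact ⟨rfl, rfl⟩
      have sub : ∀ z, Oc z (D ++ B' ++ B ++ E) → Oc z ((x, ε) :: (B ++ (y, δ) :: B' ++
          (x, !ε) :: (D ++ (y, !δ) :: E))) := fun z ⟨b, hb⟩ =>
        ⟨b, pm.mem_iff.2 (by simp only [List.mem_cons]; tauto)⟩
      have cx : ∀ p, c p ≠ x := fun p e => let ⟨b, hb⟩ := a2 p; nx b (e ▸ hb)
      have cy : ∀ p, c p ≠ y := fun p e => let ⟨b, hb⟩ := a2 p; ny b (e ▸ hb)
      refine ⟨g + 1, fun p => Fin.cases (if p.2 then y else x) (fun j => c (j, p.2)) p.1,
        θ.trans φ, inj_cases a1 yx cx cy, ?_, fun z hz => ?_, ?_⟩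
      · rintro ⟨i, b⟩
        induction i using Fin.cases
        · cases b
          · exact ⟨ε, by simp⟩
          · exact ⟨δ, by simp⟩
        · exact sub _ (a2 _)
      · rw [MulEquiv.trans_apply, a3 z fun h => hz (sub z h), b2 z]
        rintro (rfl | rfl)
        · exact hz ⟨ε, by simp⟩
        · exact hz ⟨δ, by simp⟩
      · have e1 := b1 x (Or.inl rfl)
        have e2 := b1 y (Or.inr rfl)
        simp only [if_true, yx, if_false] at e1 e2
        rw [MulEquiv.trans_apply, pc_succ, map_mul]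
        simp only [Fin.cases_zero, Fin.cases_succ, if_true, Bool.false_eq_true, if_false]
        rw [← a4, map_commutatorElement, a3 x fun ⟨b, hb⟩ => nx b hb, a3 y fun ⟨b, hb⟩ => ny b hb,
          map_mul, map_commutatorElement, e1, e2, fx φ b2 _ (List.Subset.refl _)]
        simp only [mk_cons, mk_app, sg_not, commutatorElement_def]
        group

end alg

/-- the Heisenberg group -/
@[ext] structure He where
  a : ℤ
  b : ℤ
  c : ℤ

instance : Group He where
  mul x y := ⟨x.a + y.a, x.b + y.b, x.c + y.c + x.a * y.b⟩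
  one := ⟨0, 0, 0⟩
  inv x := ⟨-x.a, -x.b, -x.c + x.a * x.b⟩
  mul_assoc x y z := He.ext (add_assoc _ _ _) (add_assoc _ _ _)
    (show x.c + y.c + x.a * y.b + z.c + (x.a + y.a) * z.b =
      x.c + (y.c + z.c + y.a * z.b) + x.a * (y.b + z.b) by ring)
  one_mul x := He.ext (zero_add _) (zero_add _) (show 0 + x.c + 0 * x.b = x.c by ring)
  mul_one x := He.ext (add_zero _) (add_zero _) (show x.c + 0 + x.a * 0 = x.c by ring)
  inv_mul_cancel x := He.ext (neg_add_cancel _) (neg_add_cancel _)
    (show -x.c + x.a * x.b + x.c + -x.a * x.b = 0 by ring)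

theorem he_mul (x y : He) : x * y = ⟨x.a + y.a, x.b + y.b, x.c + y.c + x.a * y.b⟩ := rfl

theorem he_inv (x : He) : x⁻¹ = ⟨-x.a, -x.b, -x.c + x.a * x.b⟩ := rfl

theorem he_one : (1 : He) = ⟨0, 0, 0⟩ := rfl

/-- the first coordinate -/
def fa : He →* Multiplicative ℤ where
  toFun x := Multiplicative.ofAdd x.a
  map_one' := rfl
  map_mul' _ _ := rfl

theorem he_comm {x y : He} (hx : fa x = 1) (hy : fa y = 1) : ⁅x, y⁆ = 1 := by
  have a : x.a = 0 := hx
  have b : y.a = 0 := hy
  rw [commutatorElement_eq_one_iff_mul_comm, he_mul, he_mul, a, b]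
  ext <;> simp [add_comm]

section graph

variable {V E : Type} {s t : E → V} {v₀ : V}

/-- reachable in at most `n` steps -/
def Rch (s t : E → V) (v₀ : V) : ℕ → V → Prop
  | 0, v => v = v₀
  | n + 1, v => Rch s t v₀ n v ∨ ∃ e, (t e = v ∧ Rch s t v₀ n (s e)) ∨ (s e = v ∧ Rch s t v₀ n (t e))

/-- a spanning tree -/
theorem tree (hc : Cn s t v₀) : ∃ (T : E → Prop) (h : V → FreeGroup E), h v₀ = 1 ∧
    (∀ v, Wk s t v₀ v (h v)) ∧ (∀ e, T e → h (s e) * of e * (h (t e))⁻¹ = 1) ∧
    ∀ (G : Type) [Group G] (κ : FreeGroup E →* G), (∀ e, T e → κ (of e) = 1) → ∀ v, κ (h v) = 1 := by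
  classical
  have r : ∀ v, ∃ n, Rch s t v₀ n v := hc _ ⟨0, rfl⟩ fun e =>
    ⟨fun ⟨n, h⟩ => ⟨n + 1, Or.inr ⟨e, Or.inl ⟨rfl, h⟩⟩⟩,
      fun ⟨n, h⟩ => ⟨n + 1, Or.inr ⟨e, Or.inr ⟨rfl, h⟩⟩⟩⟩
  have p : ∀ v, v ≠ v₀ → ∃ (u : V) (e : E) (b : Bool), Nat.find (r u) < Nat.find (r v) ∧
      if b then s e = u ∧ t e = v else s e = v ∧ t e = u := fun v hv => by
    have a := Nat.find_spec (r v)
    have m := fun k => Nat.find_min (r v) (m := k)
    generalize Nat.find (r v) = n at a m
    rcases n with _ | n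
    · exact absurd a hv
    · rcases a with a | ⟨e, ⟨a, b⟩ | ⟨a, b⟩⟩
      · exact absurd a (m n (Nat.lt_succ_self n))
      · exact ⟨s e, e, true, Nat.lt_succ_of_le (Nat.find_min' _ b), by simp [a]⟩
      · exact ⟨t e, e, false, Nat.lt_succ_of_le (Nat.find_min' _ b), by simp [a]⟩
  choose u e b p1 p2 using p
  obtain ⟨h, hh⟩ : ∃ h : V → FreeGroup E, ∀ v,
      h v = if hv : v = v₀ then 1 else h (u v hv) * sg (b v hv) (of (e v hv)) :=
    ⟨(measure fun v => Nat.find (r v)).wf.fix fun v ih =>
      if hv : v = v₀ then 1 else ih (u v hv) (p1 v hv) * sg (b v hv) (of (e v hv)),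
      fun v => WellFounded.fix_eq _ _ v⟩
  have ind : ∀ P : V → Prop, P v₀ → (∀ v hv, P (u v hv) → P v) → ∀ v, P v := fun P a c v =>
    (measure fun v => Nat.find (r v)).wf.induction (C := P) v fun v ih => by
      by_cases hv : v = v₀
      · exact hv ▸ a
      · exact c v hv (ih _ (p1 v hv))
  have h0 : h v₀ = 1 := by rw [hh, dif_pos rfl]
  refine ⟨fun x => ∃ v hv, e v hv = x, h, h0, ind _ (h0 ▸ Wk.one s t v₀) fun v hv a => ?_, ?_,
    fun G _ κ hκ => ind _ (by rw [h0, map_one]) fun v hv a => ?_⟩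
  · rw [hh v, dif_neg hv]
    have := p2 v hv
    have w := Wk.of s t (e v hv)
    cases hb : b v hv <;> simp only [hb, if_true, Bool.false_eq_true, if_false] at this <;>
      rw [this.1, this.2] at w
    · exact a.mul w.inv
    · exact a.mul w
  · rintro _ ⟨v, hv, rfl⟩
    have := p2 v hv
    have w := hh v
    rw [dif_neg hv] at w
    cases hb : b v hv <;> simp only [hb, if_true, Bool.false_eq_true, if_false] at this <;>
      rw [this.1, this.2, w, hb] <;> simp [sg]
  · rw [hh v, dif_neg hv, map_mul, a, map_sg, hκ _ ⟨v, hv, rfl⟩]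
    simp [sg]

theorem sm_app (α : E → ℤ) (A B : List (E × Bool)) : sm α (A ++ B) = sm α A + sm α B := by
  simp [sm]

theorem sm_cons (α : E → ℤ) (a : E × Bool) (A : List (E × Bool)) :
    sm α (a :: A) = (if a.2 then α a.1 else -α a.1) + sm α A := by simp [sm]

open Classical in
/-- the test representation -/
def rho (α : E → ℤ) (e : E) : FreeGroup E →* He :=
  lift fun x => ⟨α x, if x = e then 1 else 0, 0⟩

theorem rho_off (α : E → ℤ) {e : E} {A : List (E × Bool)} (h : ¬Oc e A) :
    rho α e (mk A) = ⟨sm α A, 0, 0⟩ := by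
  induction A with
  | nil => rfl
  | cons a A ih =>
    have e1 : a.1 ≠ e := fun x => h ⟨a.2, by simp [← x]⟩
    rw [mk_cons, map_mul, map_sg, ih fun ⟨b, hb⟩ => h ⟨b, by simp [hb]⟩, sm_cons, he_mul]
    cases a.2 <;> simp [rho, e1, sg, he_inv]

theorem rho_two (α : E → ℤ) {e : E} {b : Bool} {A B D : List (E × Bool)}
    (hn : (A ++ (e, b) :: B ++ (e, !b) :: D).Nodup)
    (h : rho α e (mk (A ++ (e, b) :: B ++ (e, !b) :: D)) = 1) : sm α B = 0 := by
  have pm : (A ++ (e, b) :: B ++ (e, !b) :: D).Perm ((e, b) :: (e, !b) :: (A ++ B ++ D)) := by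
    classical
    rw [List.perm_iff_count]
    intro a
    simp only [List.count_cons, List.count_append]
    omega
  have n1 := pm.nodup_iff.1 hn
  simp only [List.nodup_cons, List.mem_cons, not_or] at n1
  have n : ∀ c, (e, c) ∉ A ∧ (e, c) ∉ B ∧ (e, c) ∉ D := fun c => by
    simpa [not_or] using two (b := c) n1.1.2 n1.2.1
  have := congrArg He.c h
  simp only [mk_app, mk_cons, map_mul, map_sg, rho_off α fun ⟨c, hc⟩ => (n c).1 hc,
    rho_off α fun ⟨c, hc⟩ => (n c).2.1 hc, rho_off α fun ⟨c, hc⟩ => (n c).2.2 hc] at this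
  cases b <;> simp [rho, sg, he_mul, he_inv, he_one] at this <;> linarith

theorem nd_of {w : List (E × Bool)} (hn : w.Nodup) {α : E → ℤ} (h : ∀ e, rho α e (mk w) = 1)
    (e : E) (A A' : List (E × Bool)) (a : A ++ [(e, true)] <+: w) (b : A' ++ [(e, false)] <+: w) :
    sm α A + α e = sm α A' := by
  rcases List.prefix_or_prefix_of_prefix a b with c | c <;>
    rcases List.prefix_concat_iff.1 c with d | ⟨B, rfl⟩
  · simpa using List.append_inj_right' d rfl
  · obtain ⟨D, rfl⟩ := b
    have := rho_two α (b := true) (A := A) (B := B) (D := D) (by simpa using hn) (by simpa using h e)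
    simp only [sm_app, sm_cons, this]
    simp [sm]
  · simpa using List.append_inj_right' d rfl
  · obtain ⟨D, rfl⟩ := a
    have := rho_two α (b := false) (A := A') (B := B) (D := D) (by simpa using hn)
      (by simpa using h e)
    simp only [sm_app, sm_cons, this]
    simp [sm]

end graph

theorem gnf : GNF := by
  classical
  intro V E s t v₀ w hc hn ha hw nd
  obtain ⟨T, h, h0, h1, h2, h3⟩ := tree hc
  let κ : FreeGroup E →* FreeGroup {e // ¬T e} := lift fun e => if x : T e then 1 else of ⟨e, x⟩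
  have k1 : ∀ e, T e → κ (of e) = 1 := fun e x => by simp [κ, x]
  have k2 : ∀ e : {e // ¬T e}, κ (of e.1) = of e := fun e => by simp [κ, e.2]
  let r : FreeGroup E →* Lp s t v₀ := lift fun e =>
    ⟨h (s e) * of e * (h (t e))⁻¹, ((h1 _).mul (Wk.of s t e)).mul (h1 _).inv⟩
  have r1 : ∀ x : Lp s t v₀, r x = x := fun x => Subtype.ext (by
    have := x.2 (FreeGroup E) of h
    rw [h0, lift_of_eq_id, one_mul, inv_one, mul_one] at this
    refine Eq.trans ?_ this
    exact DFunLike.congr_fun (f := (Lp s t v₀).subtype.comp r)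
      (FreeGroup.ext_hom _ _ fun e => by simp [r]) x.1)
  let j : FreeGroup {e // ¬T e} →* Lp s t v₀ := lift fun e => r (of e.1)
  have jk : j.comp κ = r := FreeGroup.ext_hom _ _ fun e => by
    by_cases x : T e
    · rw [MonoidHom.comp_apply, k1 e x, map_one]
      exact Subtype.ext (by simpa [r] using (h2 e x).symm)
    · rw [MonoidHom.comp_apply, k2 ⟨e, x⟩]
      simp [j]
  let ι : FreeGroup {e // ¬T e} ≃* Lp s t v₀ := j.toMulEquiv (κ.comp (Lp s t v₀).subtype)
    (FreeGroup.ext_hom _ _ fun e => by simp [j, r, h3 _ κ k1, k2])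
    (MonoidHom.ext fun x => (DFunLike.congr_fun jk x.1).trans (r1 x))
  obtain ⟨w', n1, n2, n3⟩ : ∃ w' : List ({e // ¬T e} × Bool), w'.Nodup ∧ (∀ a, a ∈ w') ∧
      κ (mk w) = mk w' := by
    refine ⟨w.filterMap fun a => if x : T a.1 then none else some (⟨a.1, x⟩, a.2),
      hn.filterMap fun a a' b x y => ?_, fun a => List.mem_filterMap.2 ⟨(a.1.1, a.2), ha _, by
        simp [a.1.2]⟩, ?_⟩
    · split_ifs at x y
      · simp at x
      · simp at x
      · simp at y
      · have := (Option.mem_def.1 x).trans (Option.mem_def.1 y).symm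
        simp only [Option.some.injEq, Prod.mk.injEq, Subtype.mk.injEq] at this
        exact Prod.ext this.1 this.2
    · clear hn ha hw nd
      induction w with
      | nil => rfl
      | cons a w ih =>
        rw [mk_cons, map_mul, map_sg, ih, List.filterMap_cons]
        by_cases x : T a.1
        · simp [x, k1 _ x, sg]
        · simp only [x, dif_neg, not_false_iff]
          rw [mk_cons, k2 ⟨a.1, x⟩]
  obtain ⟨g, c, θ, a1, -, -, a4⟩ := qnf _ w' le_rfl n1 fun a _ => n2 _
  have e0 : (θ.trans ι) (pc fun p => of (c p)) = ⟨mk w, hw⟩ := by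
    rw [MulEquiv.trans_apply, ← a4, ← n3]
    exact (DFunLike.congr_fun jk (mk w)).trans (r1 ⟨_, hw⟩)
  generalize θ.trans ι = β at e0
  have su : Surjective c := fun y => by
    by_contra hy
    let a : Lp s t v₀ →* Multiplicative ℤ := (lift fun x =>
      Multiplicative.ofAdd (if x = y then (1 : ℤ) else 0)).comp β.symm.toMonoidHom
    have a0 : ∀ x, a (β (of x)) = Multiplicative.ofAdd (if x = y then (1 : ℤ) else 0) :=
      fun x => by simp [a]
    let α : E → ℤ := fun e => (a (r (of e))).toAdd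
    have b0 : ∀ x : Lp s t v₀, lift (fun e => Multiplicative.ofAdd (α e)) x.1 = a x := fun x => by
      rw [← congrArg a (r1 x)]
      exact DFunLike.congr_fun (g := a.comp r) (FreeGroup.ext_hom _ _ fun e => by simp [α]) x.1
    obtain ⟨φ, hφ⟩ := nd α (nd_of hn fun e => by
      have b1 : ∀ p, fa (rho α e (β (of (c p)))) = 1 := fun p => by
        rw [show fa (rho α e (β (of (c p)))) = a (β (of (c p))) from (DFunLike.congr_fun
          (f := fa.comp (rho α e)) (FreeGroup.ext_hom _ _ fun e => by simp [fa, rho]) _).trans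
            (b0 _), a0, if_neg fun x => hy ⟨p, x⟩]
        rfl
      have := congrArg (fun x : Lp s t v₀ => rho α e x.1) e0
      rw [← show _ = rho α e (mk w) from this, map_pc]
      refine (map_pc ((rho α e).comp (Lp s t v₀).subtype) _).trans (List.prod_eq_one fun x hx => ?_)
      obtain ⟨i, rfl⟩ := List.mem_ofFn.1 hx
      exact he_comm (b1 _) (b1 _))
    have b2 := (β (of y)).2 (Multiplicative ℤ) (fun _ => 1) fun v => Multiplicative.ofAdd (-φ v)
    rw [show (fun e => Multiplicative.ofAdd (-φ (s e)) * 1 * (Multiplicative.ofAdd (-φ (t e)))⁻¹) =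
      fun e => Multiplicative.ofAdd (α e) from funext fun e => by
        rw [hφ, mul_one, ← ofAdd_neg, ← ofAdd_add]; congr 1; ring, b0, a0, if_pos rfl,
      show lift (fun _ : E => (1 : Multiplicative ℤ)) = 1 from FreeGroup.ext_hom _ _ fun e => by
        simp] at b2
    simp at b2
  refine ⟨g, (freeGroupCongr (Equiv.ofBijective c ⟨a1, su⟩)).trans β, ?_⟩
  rw [MulEquiv.trans_apply, show cwd g = pc of from rfl, map_pc]
  exact congrArg Subtype.val e0

end Vale.Agent.P275GN
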